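import Vale.Agent.P232.Gap.Defs

/-! # P232: the middle window from the three certificates of the case split -/

namespace Vale.Agent.P232.Gap

noncomputable section

open Set

/-- The strict statement on the window below the slab range. -/
theorem window_of_cases {L : ℝ} (hA : AxisCert L) (h2 : TwoSmallCase L) (h1 : OneSmallCase L) :
    StrictWindow L (263 / 1000) (323 / 1000) := by
  intro v P η f a S hv hη hD
  by_contra hc
  have hc' : ¬ goalM v ≤ P + η := fun h => hc (Or.inl h)
  have alt : ∀ i, (1 / 20 ≤ f i ∧ Coup5 v P (S i)) ∨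
      (Small v (f i) (a i) ∧ BandSpare v P (f (i + 1) + f (i + 2))) := fun i =>
    (hA v P η f a S hv hη hD i).resolve_left hc
  have big : ∀ i, ¬ (Small v (f i) (a i) ∧ 1 / 20 ≤ f i) := fun i h => by
    linarith [h.1.2.1, h.2]
  have two := fun i x y z => hc (h2 v P η f a S hv hη hD i x y z)
  have one := fun i x y z => hc (h1 v P η f a S hv hη hD i x y z)
  have hs := hD.sum
  rw [Fin.sum_univ_three] at hs
  rcases alt 0 with a0 | a0 <;> rcases alt 1 with a1 | a1 <;> rcases alt 2 with a2 | a2
  · apply hc'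
    have k0 := a0.2; have k1 := a1.2; have k2 := a2.2
    simp only [Coup5] at k0 k1 k2
    linarith
  · exact one 2 a2.1 a0.1 a1.1
  · exact one 1 a1.1 a2.1 a0.1
  · exact two 0 a1.1 a2.1 a0.1
  · exact one 0 a0.1 a1.1 a2.1
  · exact two 1 a2.1 a0.1 a1.1
  · exact two 2 a0.1 a1.1 a2.1
  · apply hc'
    have h := a0.2
    simp only [BandSpare, show (0 : Fin 3) + 1 = 1 from rfl, show (0 : Fin 3) + 2 = 2 from rfl] at h
    linarith [a1.1.2.1, a2.1.2.1]

end

end Vale.Agent.P232.Gap
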