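import Vale.Agent.P232.Gap.TreeSound
import Vale.Agent.P232.Gap.AxisData.Tree

/-! # P232: the axis certificate of the middle window -/

namespace Vale.Agent.P232.Gap

noncomputable section

/-- Every axis in the window has one of the three outcomes. -/
theorem axis_cert (L : ℝ) : AxisCert L := fun _ _ _ _ _ _ hv hη D i =>
  axis_alt_of_tree hv hη D i AxisData.axisTree AxisData.axisTree_ok

end

end Vale.Agent.P232.Gap
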