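import Vale.Agent.P232.Cert

/-!
# P232: certificate trees for the axes of the middle window

Boxes in (volume, least slice area, greatest slice area). A leaf gives the base bound, the coupled
bound with `lam = 5`, or the band bound of a small axis. Numbers are integers scaled by `10^7`.
-/

namespace Vale.Agent.P232.Gap

/-- A decision tree over boxes in `(v, f, a)`. -/
inductive ATree : Type
  | base (H C u : ℤ) (ns : List (ℤ × ℤ)) : ATree
  | coup (H C u : ℤ) (ns : List (ℤ × ℤ)) : ATree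
  | small (H C u : ℤ) (ns : List (ℤ × ℤ)) : ATree
  | cutV (m : ℤ) (l r : ATree) : ATree
  | cutF (m : ℤ) (l r : ATree) : ATree
  | cutA (m : ℤ) (l r : ATree) : ATree
  | empty : ATree
  | corner : ATree

/-- An affine function below the square of the band profile with tilt one tenth. -/
def bandA : ℤ := 9936243

/-- Its slope. -/
def bandB : ℤ := 2106646

/-- The line `H x + C` is below the profile `min √(π x) √(A + B x) √(π (1 - x))`, with room `y`. -/
def nodeK (A B H C x y : ℤ) : Bool :=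
  decide (0 ≤ y ∧ y ≤ scale ∧
    (H * x + C * scale) ^ 2 ≤ (scale ^ 2 - y ^ 2) * (31415926 * x) ∧
    (H * x + C * scale) ^ 2 ≤ (scale ^ 2 - y ^ 2) * (A * scale + B * x) ∧
    (H * x + C * scale) ^ 2 ≤ (scale ^ 2 - y ^ 2) * (31415926 * (scale - x)))

/-- The nodes are admissible and strictly increasing in `[0, 1]`. -/
def chainK (A B H C : ℤ) : List (ℤ × ℤ) → Bool
  | [] => true
  | [p] => nodeK A B H C p.1 p.2 && decide (0 ≤ p.1 ∧ p.1 ≤ scale)
  | p :: q :: r => nodeK A B H C p.1 p.2 && decide (0 ≤ p.1 ∧ p.1 ≤ scale) && decide (p.1 < q.1) &&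
      chainK A B H C (q :: r)

/-- The nodes of a leaf form a calibration. -/
def leafK (A B H C : ℤ) (ns : List (ℤ × ℤ)) (f0 f1 a0 a1 : ℤ) : Bool :=
  decide (0 ≤ f0 ∧ f0 < f1 ∧ a0 < a1 ∧ a1 ≤ scale ∧ f0 < a1) && spanOk f1 a0 ns &&
    chainK A B H C ((f0, 0) :: (ns ++ [(a1, 0)]))

/-- `L ≥ c` times twice the squared scale times goal and margin `m`; the goal is one for `u = 0`
and the tangent of the tube profile at `u` otherwise. -/
def endOk (c m u x L : ℤ) : Bool :=
  if u = 0 then decide (c * (2 * scale ^ 2 + m) ≤ L)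
  else decide (0 < u ∧ c * (scale * (31415927 * x + u ^ 2) + m * u) ≤ L * u)

/-- Twice the scaled value of a base calibration. -/
def baseVal (H C S x : ℤ) : ℤ := 2 * H * x + 2 * C * scale + S

/-- The scaled value of a coupled calibration. -/
def coupVal (H C S x : ℤ) : ℤ := 372 * (5 * (2 * H * x + 2 * C * scale) + 4 * S)

/-- The box is inside the set of small axes. -/
def smallBox (v0 v1 f1 a0 a1 : ℤ) : Bool :=
  decide (v1 ≤ 3230000 ∧ f1 ≤ 4000 ∧ 4800000 ≤ a0 ∧ a1 ≤ 8000000 ∧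
    (f1 ≤ 2950 ∨ v1 < 3160000 ∨ 3183200 < v0))

/-- The whole check. -/
def ATree.check : ATree → ℤ → ℤ → ℤ → ℤ → ℤ → ℤ → Bool
  | .base H C u ns, v0, v1, f0, f1, a0, a1 =>
      leafK scale 0 H C ns f0 f1 a0 a1 &&
        endOk 1 2000000 u (max v0 f0) (baseVal H C (trap2 ns) (max v0 f0)) &&
        endOk 1 2000000 u (min v1 a1) (baseVal H C (trap2 ns) (min v1 a1))
  | .coup H C u ns, v0, v1, f0, f1, a0, a1 =>
      decide (500000 ≤ f0) && leafK scale 0 H C ns f0 f1 a0 a1 &&
        endOk 1750 2000000 u (max v0 f0) (coupVal H C (trap2 ns) (max v0 f0)) &&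
        endOk 1750 2000000 u (min v1 a1) (coupVal H C (trap2 ns) (min v1 a1))
  | .small H C u ns, v0, v1, f0, f1, a0, a1 =>
      smallBox v0 v1 f1 a0 a1 && leafK bandA bandB H C ns f0 f1 a0 a1 &&
        endOk 1 16002000000 u (max v0 f0) (baseVal H C (trap2 ns) (max v0 f0)) &&
        endOk 1 16002000000 u (min v1 a1) (baseVal H C (trap2 ns) (min v1 a1))
  | .cutV m l r, v0, v1, f0, f1, a0, a1 =>
      l.check v0 m f0 f1 a0 a1 && r.check m v1 f0 f1 a0 a1
  | .cutF m l r, v0, v1, f0, f1, a0, a1 =>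
      l.check v0 v1 f0 m a0 a1 && r.check v0 v1 m f1 a0 a1
  | .cutA m l r, v0, v1, f0, f1, a0, a1 =>
      l.check v0 v1 f0 f1 a0 m && r.check v0 v1 f0 f1 m a1
  | .empty, v0, v1, f0, _, _, a1 => decide (a1 < v0 ∨ v1 < f0)
  | .corner, _, _, f0, f1, a0, a1 => decide (0 ≤ f0 ∧ f1 ≤ 5000 ∧ 9995000 ≤ a0 ∧ a1 ≤ scale)

end Vale.Agent.P232.Gap
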