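import Vale.Agent.P232.Rigid.StrictCore

/-!
# P232: the case split of the middle window

On `[0.263, 0.323]` every axis has its base bound, or its least slice area is at least `1/20` and it
pays its third of the coupled sum, or it is small: least slice area nearly zero and greatest slice
area in a window. The small axes are treated by cases.
-/

namespace Vale.Agent.P232.Gap

noncomputable section

open Set

/-- The margin of the window. -/
def margin : ℝ := 1 / 10 ^ 8

/-- The goal with its margin. -/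
def goalM (v : ℝ) : ℝ := goalF v + margin

/-- An axis whose least slice area is nearly zero. -/
def Small (v f a : ℝ) : Prop :=
  v ≤ 323 / 1000 ∧ f ≤ 1 / 2500 ∧
    (316 / 1000 ≤ v → v ≤ 31832 / 100000 → f ≤ 295 / 10 ^ 6) ∧ 48 / 100 ≤ a ∧ a ≤ 4 / 5

/-- The coupled bound of an axis reaches its third of the sum with `lam = 5`. -/
def Coup5 (v P s : ℝ) : Prop := 14 / 3 * goalM v ≤ 5 * P - s

/-- The band bound of an axis, tilted by one tenth, beats the goal by the loss of two small axes. -/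
def BandSpare (v P m : ℝ) : Prop := goalM v + 1 / 10 * (8 / 10000) ≤ P + 1 / 10 * m

lemma coup5_iff {v P s : ℝ} :
    Coup5 v P s ↔ 14 / 3 * (goalF v + 1 / 10 ^ 8) ≤ 5 * P - s := by
  simp only [Coup5, goalM, margin]

lemma bandSpare_iff {v P m : ℝ} :
    BandSpare v P m ↔ goalF v + 1 / 10 ^ 8 + 1 / 10 * (8 / 10000) ≤ P + 1 / 10 * m := by
  simp only [BandSpare, goalM, margin]

lemma small_iff {v f a : ℝ} :
    Small v f a ↔ v ≤ 323 / 1000 ∧ f ≤ 1 / 2500 ∧
      (316 / 1000 ≤ v → v ≤ 31832 / 100000 → f ≤ 295 / 10 ^ 6) ∧ 48 / 100 ≤ a ∧ a ≤ 4 / 5 := by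
  simp only [Small]

/-- What the certificate gives for the axis `i`. -/
def AxisAlt (v P η : ℝ) (f a S : Fin 3 → ℝ) (i : Fin 3) : Prop :=
  StrictCore v P η f a ∨ (1 / 20 ≤ f i ∧ Coup5 v P (S i)) ∨
    (Small v (f i) (a i) ∧ BandSpare v P (f (i + 1) + f (i + 2)))

/-- The axis certificate. -/
def AxisCert (L : ℝ) : Prop :=
  ∀ (v P η : ℝ) (f a S : Fin 3 → ℝ), v ∈ Icc (263 / 1000 : ℝ) (323 / 1000) → 0 ≤ η →
    Data L v P η f a S → ∀ i, AxisAlt v P η f a S i

/-- Two small axes. -/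
def TwoSmallCase (L : ℝ) : Prop :=
  ∀ (v P η : ℝ) (f a S : Fin 3 → ℝ), v ∈ Icc (263 / 1000 : ℝ) (323 / 1000) → 0 ≤ η →
    Data L v P η f a S → ∀ i, Small v (f (i + 1)) (a (i + 1)) → Small v (f (i + 2)) (a (i + 2)) →
      1 / 20 ≤ f i → StrictCore v P η f a

/-- One small axis. -/
def OneSmallCase (L : ℝ) : Prop :=
  ∀ (v P η : ℝ) (f a S : Fin 3 → ℝ), v ∈ Icc (263 / 1000 : ℝ) (323 / 1000) → 0 ≤ η →
    Data L v P η f a S → ∀ i, Small v (f i) (a i) → 1 / 20 ≤ f (i + 1) → 1 / 20 ≤ f (i + 2) →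
      StrictCore v P η f a

end

end Vale.Agent.P232.Gap
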