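import Vale.Agent.P232.Gap.Assemble
import Vale.Agent.P232.Gap.AxisCert

/-! # P232: the middle window from the two small-axis cases -/

namespace Vale.Agent.P232.Gap

noncomputable section

/-- The strict statement on the window, given the two cases with small axes. -/
theorem window {L : ℝ} (h2 : TwoSmallCase L) (h1 : OneSmallCase L) :
    StrictWindow L (263 / 1000) (323 / 1000) :=
  window_of_cases (axis_cert L) h2 h1

end

end Vale.Agent.P232.Gap
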