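import Vale.Agent.P232.Gap.TwoSmall
import Vale.Agent.P232.Gap.Main

/-! # P232: one small axis, the tube split -/

namespace Vale.Agent.P232.Gap

noncomputable section

open Set

/-- One small axis, from the bound away from the tube. -/
theorem oneSmall_of_bound {L : ℝ}
    (h : ∀ (v P η : ℝ) (f a S : Fin 3 → ℝ), v ∈ Icc (263 / 1000 : ℝ) (323 / 1000) → 0 ≤ η →
      Data L v P η f a S → ∀ i, f i ≤ 1 / 2500 → 1 / 20 ≤ f (i + 1) → 1 / 20 ≤ f (i + 2) →
        (∀ n, 6 / 1000 < a n - f n) → goalF v + 1 / 10 ^ 8 ≤ P + η) :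
    OneSmallCase L := by
  intro v P η f a S hv hη D i hs h1 h2
  by_cases hT : ∀ n, 6 / 1000 < a n - f n
  · exact Or.inl (h v P η f a S hv hη D i hs.2.1 h1 h2 hT)
  · push Not at hT
    exact Or.inr (Or.inl ⟨⟨by linarith [hv.1], by linarith [hv.2]⟩, hT⟩)

/-- The window from the bound for one small axis away from the tube. -/
theorem window_of_bound {L : ℝ}
    (h : ∀ (v P η : ℝ) (f a S : Fin 3 → ℝ), v ∈ Icc (263 / 1000 : ℝ) (323 / 1000) → 0 ≤ η →
      Data L v P η f a S → ∀ i, f i ≤ 1 / 2500 → 1 / 20 ≤ f (i + 1) → 1 / 20 ≤ f (i + 2) →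
        (∀ n, 6 / 1000 < a n - f n) → goalF v + 1 / 10 ^ 8 ≤ P + η) :
    StrictWindow L (263 / 1000) (323 / 1000) :=
  window (twoSmall_case L) (oneSmall_of_bound h)

end

end Vale.Agent.P232.Gap
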