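import Vale.Agent.P232.Gap.Check
import Vale.Agent.P232.CertSound
import Vale.Agent.P232.GraphType
import Vale.Agent.P232.Window

/-!
# P232: soundness of the axis trees
-/

namespace Vale.Agent.P232.Gap

noncomputable section

open Real MeasureTheory Set

/-- `y` is admissible for the line against `min √(π x) √(A + B x) √(π (1 - x))`. -/
def AdmK (A B H C x y : ℝ) : Prop :=
  0 ≤ y ∧ y ≤ 1 ∧ (H * x + C) ^ 2 ≤ (1 - y ^ 2) * (π * x) ∧
    (H * x + C) ^ 2 ≤ (1 - y ^ 2) * (A + B * x) ∧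
    (H * x + C) ^ 2 ≤ (1 - y ^ 2) * (π * (1 - x))

lemma admK_of_nodeK {A B H C x y : ℤ} (h : nodeK A B H C x y = true) (h0 : 0 ≤ x)
    (h1 : x ≤ scale) : AdmK (sc A) (sc B) (sc H) (sc C) (sc x) (sc y) := by
  replace h := of_decide_eq_true h
  simp only [scale] at h h1
  obtain ⟨g0, g1, g2, g3, g4⟩ := h
  have r0 : (0 : ℝ) ≤ y := by exact_mod_cast g0
  have r1 : (y : ℝ) ≤ 10000000 := by exact_mod_cast g1
  have r2 : ((H : ℝ) * x + C * 10000000) ^ 2 ≤ (10000000 ^ 2 - (y : ℝ) ^ 2) * (31415926 * x) := by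
    exact_mod_cast g2
  have r3 : ((H : ℝ) * x + C * 10000000) ^ 2 ≤
      (10000000 ^ 2 - (y : ℝ) ^ 2) * (A * 10000000 + B * x) := by exact_mod_cast g3
  have r4 : ((H : ℝ) * x + C * 10000000) ^ 2 ≤
      (10000000 ^ 2 - (y : ℝ) ^ 2) * (31415926 * (10000000 - x)) := by exact_mod_cast g4
  have x0 : (0 : ℝ) ≤ x := by exact_mod_cast h0
  have x1 : (x : ℝ) ≤ 10000000 := by exact_mod_cast h1
  have hp : (31415926 : ℝ) / 10000000 ≤ π := by linarith [Real.pi_gt_d20]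
  have hr : (0 : ℝ) ≤ 1 - sc y ^ 2 := by
    have : sc y ≤ 1 := by rw [sc, div_le_one (by norm_num)]; exact r1
    nlinarith [div_nonneg r0 (by norm_num : (0 : ℝ) ≤ 10000000), show sc y = (y : ℝ) / 10000000 from rfl]
  have e : (sc H * sc x + sc C) ^ 2 = ((H : ℝ) * x + C * 10000000) ^ 2 / 10000000 ^ 4 := by
    simp only [sc]; ring
  refine ⟨div_nonneg r0 (by norm_num), by rw [sc, div_le_one (by norm_num)]; exact r1, ?_, ?_, ?_⟩
  · have h5 : (sc H * sc x + sc C) ^ 2 ≤ (1 - sc y ^ 2) * (31415926 / 10000000 * sc x) := by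
      refine (e.trans_le (div_le_div_of_nonneg_right r2 (by norm_num))).trans_eq ?_
      simp only [sc]; ring
    exact h5.trans (mul_le_mul_of_nonneg_left
      (mul_le_mul_of_nonneg_right hp (div_nonneg x0 (by norm_num))) hr)
  · refine (e.trans_le (div_le_div_of_nonneg_right r3 (by norm_num))).trans_eq ?_
    simp only [sc]; ring
  · have h5 : (sc H * sc x + sc C) ^ 2 ≤ (1 - sc y ^ 2) * (31415926 / 10000000 * (1 - sc x)) := by
      refine (e.trans_le (div_le_div_of_nonneg_right r4 (by norm_num))).trans_eq ?_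
      simp only [sc]; ring
    refine h5.trans (mul_le_mul_of_nonneg_left (mul_le_mul_of_nonneg_right hp ?_) hr)
    rw [sub_nonneg, sc, div_le_one (by norm_num)]; exact x1

lemma AdmK.interp {A B H C x₀ x₁ y₀ y₁ x : ℝ} (h₀ : AdmK A B H C x₀ y₀)
    (h₁ : AdmK A B H C x₁ y₁) (hx₀ : 0 ≤ x₀) (hx₁ : x₁ ≤ 1) (hk₀ : 0 ≤ A + B * x₀)
    (hk₁ : 0 ≤ A + B * x₁) (ha : x₀ ≤ x) (hb : x ≤ x₁) (hlt : x₀ < x₁) :
    AdmK A B H C x (y₀ + (x - x₀) * ((y₁ - y₀) / (x₁ - x₀))) := by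
  set τ := (x - x₀) / (x₁ - x₀) with hτ
  have hd : 0 < x₁ - x₀ := by linarith
  have t0 : 0 ≤ τ := div_nonneg (by linarith) hd.le
  have t1 : τ ≤ 1 := by rw [hτ, div_le_one hd]; linarith
  have ex : x = (1 - τ) * x₀ + τ * x₁ := by rw [hτ]; field_simp; ring
  have ey : y₀ + (x - x₀) * ((y₁ - y₀) / (x₁ - x₀)) = (1 - τ) * y₀ + τ * y₁ := by
    rw [hτ]; field_simp; ring
  rw [ey, ex]
  obtain ⟨a0, a1, a2, a3, a4⟩ := h₀
  obtain ⟨b0, b1, b2, b3, b4⟩ := h₁
  have hu : 0 ≤ 1 - τ := by linarith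
  refine ⟨by positivity, by nlinarith, ?_, ?_, ?_⟩
  · refine (interp_affine (τ := τ) t0 t1 (mul_nonneg Real.pi_pos.le hx₀)
      (mul_nonneg Real.pi_pos.le (by linarith)) a0 a1 b0 b1 a2 b2).trans_eq ?_
    ring
  · refine (interp_affine (τ := τ) t0 t1 hk₀ hk₁ a0 a1 b0 b1 a3 b3).trans_eq ?_
    ring
  · refine (interp_affine (τ := τ) t0 t1 (mul_nonneg Real.pi_pos.le (by linarith))
      (mul_nonneg Real.pi_pos.le (by linarith)) a0 a1 b0 b1 a4 b4).trans_eq ?_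
    ring

lemma nodeOk_zero {A B H C x y : ℤ} (h : nodeK A B H C x y = true) (h0 : 0 ≤ x) (h1 : x ≤ scale) :
    nodeOk 0 0 x y = true := by
  replace h := of_decide_eq_true h
  obtain ⟨g0, g1, -⟩ := h
  have hq : 0 ≤ scale ^ 2 - y ^ 2 := by nlinarith
  have hs : (0 : ℤ) ≤ scale - x := by linarith
  refine decide_eq_true ⟨g0, g1, ?_, ?_, ?_⟩ <;>
    simp only [zero_mul, add_zero, ne_eq, OfNat.ofNat_ne_zero, not_false_eq_true, zero_pow] <;>
    positivity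

lemma chainOk_zero {A B H C : ℤ} : ∀ L : List (ℤ × ℤ), chainK A B H C L = true →
    chainOk 0 0 L = true
  | [], _ => rfl
  | [p], h => by
    simp only [chainK, Bool.and_eq_true, decide_eq_true_eq] at h
    exact nodeOk_zero h.1 h.2.1 h.2.2
  | p :: q :: r, h => by
    simp only [chainK, Bool.and_eq_true, decide_eq_true_eq] at h
    simp only [chainOk, Bool.and_eq_true, decide_eq_true_eq]
    exact ⟨⟨nodeOk_zero h.1.1.1 h.1.1.2.1 h.1.1.2.2, h.1.2⟩, chainOk_zero _ h.2⟩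

lemma head_mem {A B H C : ℤ} {p : ℤ × ℤ} {r : List (ℤ × ℤ)}
    (h : chainK A B H C (p :: r) = true) :
    nodeK A B H C p.1 p.2 = true ∧ 0 ≤ p.1 ∧ p.1 ≤ scale := by
  cases r <;> simp only [chainK, Bool.and_eq_true, decide_eq_true_eq] at h
  · exact h
  · exact h.1.1

/-- Every value of the interpolant is admissible. -/
lemma admK_pl {A B H C : ℤ} (hA : ∀ x : ℝ, 0 ≤ x → 0 ≤ sc A + sc B * x) :
    ∀ (p : ℤ × ℤ) (r : List (ℤ × ℤ)), chainK A B H C (p :: r) = true →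
    ∀ x, sc p.1 ≤ x → x ≤ sc (lastX p r) → AdmK (sc A) (sc B) (sc H) (sc C) x (pl (p :: r) x)
  | p, [], h, x, hx, hx' => by
    obtain ⟨g, g0, g1⟩ := head_mem h
    have e : x = sc p.1 := le_antisymm hx' hx
    subst e
    exact admK_of_nodeK g g0 g1
  | p, q :: r, h, x, hx, hx' => by
    have hz := chainOk_zero _ h
    simp only [chainK, Bool.and_eq_true, decide_eq_true_eq] at h
    simp only [chainOk, Bool.and_eq_true, decide_eq_true_eq] at hz
    obtain ⟨⟨⟨gp, gp0, gp1⟩, hlt⟩, hr⟩ := h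
    rcases le_total x (sc q.1) with c | c
    · obtain ⟨gq, gq0, gq1⟩ := head_mem hr
      rw [pl, if_pos c]
      have n0 : ∀ z : ℤ, 0 ≤ z → (0 : ℝ) ≤ sc z := fun z hz0 =>
        div_nonneg (Int.cast_nonneg hz0) (by norm_num)
      refine (admK_of_nodeK gp gp0 gp1).interp (admK_of_nodeK gq gq0 gq1) (n0 _ gp0) ?_
        (hA _ (n0 _ gp0)) (hA _ (n0 _ gq0)) hx c (sc_lt hlt)
      rw [sc, div_le_one (by norm_num)]
      exact_mod_cast gq1
    · rw [pl_cons hz.2 hz.1.2 c]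
      exact admK_pl hA q r hr x c hx'

/-- A leaf provides a calibration with a large integral. -/
lemma leafK_exists {A B H C f0 f1 a0 a1 : ℤ} {ns : List (ℤ × ℤ)}
    (hA : ∀ x : ℝ, 0 ≤ x → 0 ≤ sc A + sc B * x)
    (h : leafK A B H C ns f0 f1 a0 a1 = true) {f a : ℝ} (hf : sc f0 ≤ f) (hf' : f ≤ sc f1)
    (ha : sc a0 ≤ a) (ha' : a ≤ sc a1) (hfa : f ≤ a) :
    ∃ β : ℝ → ℝ, ContinuousOn β (Icc f a) ∧
      (∀ x ∈ Icc f a, AdmK (sc A) (sc B) (sc H) (sc C) x (β x)) ∧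
      (trap2 ns : ℝ) / (2 * 10000000 ^ 2) ≤ ∫ x in f..a, β x := by
  simp only [leafK, Bool.and_eq_true, decide_eq_true_eq] at h
  obtain ⟨⟨hd, hs⟩, hk⟩ := h
  set L := (f0, (0 : ℤ)) :: (ns ++ [(a1, 0)]) with hL
  have hlast : lastX ((f0, 0) : ℤ × ℤ) (ns ++ [(a1, 0)]) = a1 := lastX_append _ _ _
  have hadm : ∀ x ∈ Icc f a, AdmK (sc A) (sc B) (sc H) (sc C) x (pl L x) := fun x hx =>
    admK_pl hA _ _ hk x (hf.trans hx.1) (by rw [hlast]; exact hx.2.trans ha')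
  have hc := chainOk_zero _ hk
  have hcont := continuous_pl L hc
  refine ⟨pl L, hcont.continuousOn, hadm, ?_⟩
  have hpos : 0 ≤ ∫ x in f..a, pl L x :=
    intervalIntegral.integral_nonneg hfa fun x hx => (hadm x hx).1
  cases ns with
  | nil => simpa [trap2] using hpos
  | cons p r =>
    simp only [spanOk, decide_eq_true_eq] at hs
    rw [hL, List.cons_append] at hc
    simp only [chainOk, Bool.and_eq_true, decide_eq_true_eq] at hc
    have hc' : chainOk 0 0 (p :: r) = true :=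
      chainOk_left (p :: r) (a1, 0) (by rw [List.cons_append]; exact hc.2)
    have hle : f1 ≤ a0 := by rw [← hs.1, ← hs.2]; exact lastX_ge p r hc'
    have e : (∫ x in sc f1..sc a0, pl L x) = (trap2 (p :: r) : ℝ) / (2 * 10000000 ^ 2) := by
      rw [← integral_pl p r hc', hs.1, hs.2]
      refine intervalIntegral.integral_congr fun x hx => ?_
      rw [Set.uIcc_of_le (sc_le hle)] at hx
      rw [hL, List.cons_append, pl_cons hc.2 hc.1.2 (by rw [hs.1]; exact hx.1)]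
      exact pl_append p r (a1, 0) hc.2 x (by rw [hs.1]; exact hx.1) (by rw [hs.2]; exact hx.2)
    rw [← e]
    refine intervalIntegral.integral_mono_interval hf' (sc_le hle) ha ?_
      (hcont.intervalIntegrable _ _)
    filter_upwards [ae_restrict_mem measurableSet_Ioc] with x hx
    exact (hadm x ⟨hx.1.le, hx.2⟩).1

lemma AdmK.gfun {H C x y : ℝ} (h : AdmK (sc scale) (sc 0) H C x y) (hx0 : 0 ≤ x) (hx1 : x ≤ 1) :
    0 ≤ y ∧ (H * x + C) ^ 2 + P232.gfun x ^ 2 * y ^ 2 ≤ P232.gfun x ^ 2 ∧ y ≤ 1 := by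
  obtain ⟨h0, h1, h2, h3, h4⟩ := h
  have e1 : sc scale = 1 := by norm_num [sc, scale]
  have e0 : sc 0 = 0 := by norm_num [sc]
  rw [e1, e0] at h3
  exact ⟨h0, Adm.gfun ⟨h0, h1, h2, by simpa using h3, h4⟩ hx0 hx1, h1⟩

lemma band_sq {x : ℝ} (hx : 0 ≤ x) :
    0 ≤ sc bandA + sc bandB * x ∧ sc bandA + sc bandB * x ≤ (bandC (1 / 10) + 1 / 10 * x) ^ 2 := by
  have hc := bandC_ge (k := 1 / 10) ⟨by norm_num, by norm_num⟩
  norm_num [bandA, bandB, sc] at hc ⊢
  constructor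
  · positivity
  · nlinarith [sq_nonneg (x - 55 / 100), mul_le_mul_of_nonneg_right hc hx]

lemma AdmK.kfun {H C x y : ℝ} (h : AdmK (sc bandA) (sc bandB) H C x y) (hx0 : 0 ≤ x)
    (hx1 : x ≤ 1) :
    0 ≤ y ∧ (H * x + C) ^ 2 + P232.kfun (1 / 10) (1 / 10) x ^ 2 * y ^ 2 ≤
      P232.kfun (1 / 10) (1 / 10) x ^ 2 ∧ y ≤ 1 := by
  obtain ⟨h0, h1, h2, h3, h4⟩ := h
  refine ⟨h0, ?_, h1⟩
  have hr : 0 ≤ 1 - y ^ 2 := by nlinarith
  have hb := h3.trans (mul_le_mul_of_nonneg_left (band_sq hx0).2 hr)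
  suffices (H * x + C) ^ 2 ≤ (1 - y ^ 2) * P232.kfun (1 / 10) (1 / 10) x ^ 2 by linarith
  unfold P232.kfun
  rcases min_choice (min √(π * x) (bandC (1 / 10) + 1 / 10 * x))
      (min (bandC (1 / 10) + 1 / 10 * x) √(π * (1 - x))) with e | e <;> rw [e]
  · rcases min_choice √(π * x) (bandC (1 / 10) + 1 / 10 * x) with e' | e' <;> rw [e']
    · rwa [Real.sq_sqrt (by positivity)]
    · exact hb
  · rcases min_choice (bandC (1 / 10) + 1 / 10 * x) √(π * (1 - x)) with e' | e' <;> rw [e']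
    · exact hb
    · rwa [Real.sq_sqrt (mul_nonneg Real.pi_pos.le (by linarith))]

/-- The end inequality gives the goal with the margin, along the whole range of volumes. -/
lemma endOk_sound {c m u x₀ x₁ : ℤ} {L : ℤ → ℤ} {α κ : ℝ} (hc : 0 < c) (_hm : 0 ≤ m)
    (hL : ∀ x, (L x : ℝ) = α * x + κ) (h₀ : endOk c m u x₀ (L x₀) = true)
    (h₁ : endOk c m u x₁ (L x₁) = true) {v : ℝ} (hv₀ : sc x₀ ≤ v) (hv₁ : v ≤ sc x₁)
    (hv : 0 ≤ v) :
    c * (2 * 10000000 ^ 2 * goalF v + m) ≤ α * (v * 10000000) + κ := by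
  have hc' : (0 : ℝ) < c := Int.cast_pos.2 hc
  set X := v * 10000000 with hX
  have hX0 : (x₀ : ℝ) ≤ X := by
    rw [hX]; simp only [sc] at hv₀; rw [div_le_iff₀ (by norm_num)] at hv₀; exact hv₀
  have hX1 : X ≤ (x₁ : ℝ) := by
    rw [hX]; simp only [sc] at hv₁; rw [le_div_iff₀ (by norm_num)] at hv₁; exact hv₁
  have lin : ∀ p r : ℝ, 0 ≤ p * (x₀ : ℝ) + r → 0 ≤ p * (x₁ : ℝ) + r → 0 ≤ p * X + r := by
    intro p r q0 q1
    rcases le_total 0 p with s | s
    · nlinarith [mul_le_mul_of_nonneg_left hX0 s]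
    · nlinarith [mul_le_mul_of_nonpos_left hX1 s]
  unfold endOk at h₀ h₁
  by_cases hu : u = 0
  · rw [if_pos hu] at h₀ h₁
    replace h₀ := of_decide_eq_true h₀
    replace h₁ := of_decide_eq_true h₁
    simp only [scale] at h₀ h₁
    have r₀ : (c : ℝ) * (2 * 10000000 ^ 2 + m) ≤ L x₀ := by exact_mod_cast h₀
    have r₁ : (c : ℝ) * (2 * 10000000 ^ 2 + m) ≤ L x₁ := by exact_mod_cast h₁
    rw [hL] at r₀ r₁
    have := lin α (κ - c * (2 * 10000000 ^ 2 + m)) (by linarith) (by linarith)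
    have hg : goalF v ≤ 1 := min_le_right _ _
    nlinarith
  · rw [if_neg hu] at h₀ h₁
    obtain ⟨hu0, h₀⟩ := of_decide_eq_true h₀
    obtain ⟨-, h₁⟩ := of_decide_eq_true h₁
    simp only [scale] at h₀ h₁
    have u0 : (0 : ℝ) < u := Int.cast_pos.2 hu0
    have r₀ : (c : ℝ) * (10000000 * (31415927 * x₀ + (u : ℝ) ^ 2) + m * u) ≤ L x₀ * u := by
      exact_mod_cast h₀
    have r₁ : (c : ℝ) * (10000000 * (31415927 * x₁ + (u : ℝ) ^ 2) + m * u) ≤ L x₁ * u := by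
      exact_mod_cast h₁
    rw [hL] at r₀ r₁
    have := lin (α * u - c * 10000000 * 31415927)
      (κ * u - c * (10000000 * (u : ℝ) ^ 2 + m * u)) (by linarith) (by linarith)
    have hs : 2 * √(π * v) * ((u : ℝ) / 10000000) ≤ π * v + ((u : ℝ) / 10000000) ^ 2 := by
      nlinarith [sq_nonneg (√(π * v) - (u : ℝ) / 10000000),
        Real.sq_sqrt (mul_nonneg Real.pi_pos.le hv)]
    have hp : π * v ≤ 31415927 / 10000000 * v :=
      mul_le_mul_of_nonneg_right (by linarith [Real.pi_lt_d20]) hv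
    have hg : goalF v ≤ √(π * v) := (min_le_left _ _).trans (min_le_right _ _)
    have key : (c : ℝ) * (2 * 10000000 ^ 2 * goalF v + m) * u ≤ (α * X + κ) * u := by
      have h1 : 2 * goalF v * ((u : ℝ) / 10000000) ≤ 31415927 / 10000000 * v + ((u : ℝ) / 10000000) ^ 2 := by
        nlinarith [mul_le_mul_of_nonneg_right hg (div_nonneg u0.le (by norm_num : (0 : ℝ) ≤ 10000000))]
      have h2 : 2 * 10000000 ^ 2 * goalF v * u ≤ 10000000 * (31415927 * X + (u : ℝ) ^ 2) := by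
        have h3 := mul_le_mul_of_nonneg_left h1 (by norm_num : (0 : ℝ) ≤ 10000000 ^ 3)
        rw [hX]; linarith
      nlinarith [mul_le_mul_of_nonneg_left h2 hc'.le]
    exact le_of_mul_le_mul_right key u0

end

end Vale.Agent.P232.Gap
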