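import Vale.Agent.P232.Gap.Defs
import Vale.Agent.P232.Gap.Sound
import Vale.Agent.P232.CornerWindow

/-!
# P232: what a checked axis tree proves
-/

namespace Vale.Agent.P232.Gap

noncomputable section

open Real MeasureTheory Set

/-- The outcome of a tree for one axis: base with margin, coupled, small, or slab corner. -/
def Out (v P f a s m : ℝ) : Prop :=
  goalM v ≤ P ∨ (1 / 20 ≤ f ∧ Coup5 v P s) ∨ (Small v f a ∧ BandSpare v P m) ∨
    (f ≤ 1 / 2000 ∧ 1 - 1 / 2000 ≤ a)

lemma kfun_zero' : P232.kfun 0 0 = P232.gfun := by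
  funext x
  simp only [P232.kfun, P232.gfun, show bandC 0 = 1 by simp [bandC], zero_mul, add_zero]
  rw [← min_assoc, min_assoc (√(π * x)) 1 1, min_self]

/-- What a checked tree proves. -/
lemma tree_sound {v f a P s m : ℝ} (hfv : f ≤ v) (hva : v ≤ a) (hf0 : 0 ≤ f) (ha1 : a ≤ 1)
    (hP : Low P232.gfun v f a P) (hQ : LowR P232.gfun (4 / 5) v f a ((5 * P - s) / (124 / 25)))
    (hK : Low (P232.kfun (1 / 10) (1 / 10)) v f a (P + 1 / 10 * m)) :
    ∀ (T : ATree) (v0 v1 f0 f1 a0 a1 : ℤ), T.check v0 v1 f0 f1 a0 a1 = true →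
      sc v0 ≤ v → v ≤ sc v1 → sc f0 ≤ f → f ≤ sc f1 → sc a0 ≤ a → a ≤ sc a1 → Out v P f a s m
  | .base H C u ns, v0, v1, f0, f1, a0, a1, h, hv, hv', hf, hf', ha, ha' => by
    simp only [ATree.check, Bool.and_eq_true] at h
    obtain ⟨⟨hl, e0⟩, e1⟩ := h
    obtain ⟨β, hc, hb, hI⟩ := leafK_exists (by intro x _; norm_num [sc, scale])
      hl hf hf' ha ha' (hfv.trans hva)
    have main := hP _ _ β hc fun x hx => (hb x hx).gfun (hf0.trans hx.1) (hx.2.trans ha1)
    have hlo : sc (max v0 f0) ≤ v := by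
      rcases max_choice v0 f0 with e | e <;> rw [e]
      exacts [hv, hf.trans hfv]
    have hhi : v ≤ sc (min v1 a1) := by
      rcases min_choice v1 a1 with e | e <;> rw [e]
      exacts [hv', hva.trans ha']
    have k := endOk_sound (L := baseVal H C (trap2 ns)) (α := 2 * H)
      (κ := 2 * C * 10000000 + trap2 ns) one_pos (by norm_num)
      (fun x => by simp only [baseVal, scale]; push_cast; ring) e0 e1 hlo hhi (hf0.trans hfv)
    push_cast at k
    simp only [sc] at main
    exact Or.inl (by simp only [goalM, margin]; linarith)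
  | .coup H C u ns, v0, v1, f0, f1, a0, a1, h, hv, hv', hf, hf', ha, ha' => by
    simp only [ATree.check, Bool.and_eq_true, decide_eq_true_eq] at h
    obtain ⟨⟨⟨h5, hl⟩, e0⟩, e1⟩ := h
    obtain ⟨β, hc, hb, hI⟩ := leafK_exists (by intro x _; norm_num [sc, scale])
      hl hf hf' ha ha' (hfv.trans hva)
    have main := hQ _ _ β hc fun x hx => (hb x hx).gfun (hf0.trans hx.1) (hx.2.trans ha1)
    have hlo : sc (max v0 f0) ≤ v := by
      rcases max_choice v0 f0 with e | e <;> rw [e]
      exacts [hv, hf.trans hfv]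
    have hhi : v ≤ sc (min v1 a1) := by
      rcases min_choice v1 a1 with e | e <;> rw [e]
      exacts [hv', hva.trans ha']
    have k := endOk_sound (L := coupVal H C (trap2 ns)) (α := 3720 * H)
      (κ := 3720 * C * 10000000 + 1488 * trap2 ns) (by norm_num) (by norm_num)
      (fun x => by simp only [coupVal, scale]; push_cast; ring) e0 e1 hlo hhi (hf0.trans hfv)
    push_cast at k
    simp only [sc] at main
    rw [le_div_iff₀ (by norm_num)] at main
    refine Or.inr (Or.inl ⟨?_, by simp only [Coup5, goalM, margin]; linarith⟩)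
    have : (500000 : ℝ) ≤ f0 := by exact_mod_cast h5
    simp only [sc] at hf
    linarith
  | .small H C u ns, v0, v1, f0, f1, a0, a1, h, hv, hv', hf, hf', ha, ha' => by
    simp only [ATree.check, smallBox, Bool.and_eq_true, decide_eq_true_eq] at h
    obtain ⟨⟨⟨⟨b0, b1, b2, b3, b4⟩, hl⟩, e0⟩, e1⟩ := h
    obtain ⟨β, hc, hb, hI⟩ := leafK_exists (fun x hx => (band_sq hx).1)
      hl hf hf' ha ha' (hfv.trans hva)
    have main := hK _ _ β hc fun x hx => (hb x hx).kfun (hf0.trans hx.1) (hx.2.trans ha1)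
    have hlo : sc (max v0 f0) ≤ v := by
      rcases max_choice v0 f0 with e | e <;> rw [e]
      exacts [hv, hf.trans hfv]
    have hhi : v ≤ sc (min v1 a1) := by
      rcases min_choice v1 a1 with e | e <;> rw [e]
      exacts [hv', hva.trans ha']
    have k := endOk_sound (L := baseVal H C (trap2 ns)) (α := 2 * H)
      (κ := 2 * C * 10000000 + trap2 ns) one_pos (by norm_num)
      (fun x => by simp only [baseVal, scale]; push_cast; ring) e0 e1 hlo hhi (hf0.trans hfv)
    push_cast at k
    have r0 : (v1 : ℝ) ≤ 3230000 := by exact_mod_cast b0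
    have r1 : (f1 : ℝ) ≤ 4000 := by exact_mod_cast b1
    have r2 : (4800000 : ℝ) ≤ a0 := by exact_mod_cast b2
    have r3 : (a1 : ℝ) ≤ 8000000 := by exact_mod_cast b3
    simp only [sc] at main hv hv' hf' ha ha'
    refine Or.inr (Or.inr (Or.inl ⟨⟨by linarith, by linarith, fun w0 w1 => ?_, by linarith,
      by linarith⟩, by simp only [BandSpare, goalM, margin]; linarith⟩))
    rcases b4 with b4 | b4 | b4
    · have : (f1 : ℝ) ≤ 2950 := by exact_mod_cast b4
      linarith
    · have : (v1 : ℝ) < 3160000 := by exact_mod_cast b4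
      linarith
    · have : (3183200 : ℝ) < v0 := by exact_mod_cast b4
      linarith
  | .cutV n l r, v0, v1, f0, f1, a0, a1, h, hv, hv', hf, hf', ha, ha' => by
    simp only [ATree.check, Bool.and_eq_true] at h
    rcases le_total v (sc n) with c | c
    · exact tree_sound hfv hva hf0 ha1 hP hQ hK l _ _ _ _ _ _ h.1 hv c hf hf' ha ha'
    · exact tree_sound hfv hva hf0 ha1 hP hQ hK r _ _ _ _ _ _ h.2 c hv' hf hf' ha ha'
  | .cutF n l r, v0, v1, f0, f1, a0, a1, h, hv, hv', hf, hf', ha, ha' => by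
    simp only [ATree.check, Bool.and_eq_true] at h
    rcases le_total f (sc n) with c | c
    · exact tree_sound hfv hva hf0 ha1 hP hQ hK l _ _ _ _ _ _ h.1 hv hv' hf c ha ha'
    · exact tree_sound hfv hva hf0 ha1 hP hQ hK r _ _ _ _ _ _ h.2 hv hv' c hf' ha ha'
  | .cutA n l r, v0, v1, f0, f1, a0, a1, h, hv, hv', hf, hf', ha, ha' => by
    simp only [ATree.check, Bool.and_eq_true] at h
    rcases le_total a (sc n) with c | c
    · exact tree_sound hfv hva hf0 ha1 hP hQ hK l _ _ _ _ _ _ h.1 hv hv' hf hf' ha c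
    · exact tree_sound hfv hva hf0 ha1 hP hQ hK r _ _ _ _ _ _ h.2 hv hv' hf hf' c ha'
  | .empty, v0, v1, f0, f1, a0, a1, h, hv, hv', hf, _, _, ha' => by
    replace h := of_decide_eq_true h
    exfalso
    rcases h with h | h
    · linarith [sc_lt h]
    · linarith [sc_lt h]
  | .corner, v0, v1, f0, f1, a0, a1, h, _, _, _, hf', ha, _ => by
    replace h := of_decide_eq_true h
    obtain ⟨-, h3, h4, -⟩ := h
    have r3 : (f1 : ℝ) ≤ 5000 := by exact_mod_cast h3
    have r4 : (9995000 : ℝ) ≤ a0 := by exact_mod_cast h4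
    simp only [sc] at hf' ha
    exact Or.inr (Or.inr (Or.inr ⟨by linarith, by linarith⟩))

/-- The bounds of one axis in the form used by the trees, and what follows for the axis. -/
lemma axis_alt_of_tree {L v P η : ℝ} {f a S : Fin 3 → ℝ} (hv : v ∈ Icc (263 / 1000 : ℝ) (323 / 1000))
    (hη : 0 ≤ η) (D : Data L v P η f a S) (i : Fin 3) (T : ATree)
    (hT : T.check 2630000 3230000 0 3230000 2630000 10000000 = true) : AxisAlt v P η f a S i := by
  have A := D.ax i
  have hz : (0 : ℝ) ∈ Icc (0 : ℝ) 1 := ⟨le_rfl, zero_le_one⟩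
  have ht : (1 / 10 : ℝ) ∈ Icc (0 : ℝ) 1 := ⟨by norm_num, by norm_num⟩
  have hq := A.coup 0 0 hz hz 5 (124 / 25) (4 / 5) (by norm_num) (by norm_num) (by norm_num)
    fun s hs => by nlinarith [sq_nonneg (s - 57 / 100), hs.1, hs.2]
  rw [kfun_zero'] at hq
  simp only [zero_mul, add_zero] at hq
  have hk := A.band (1 / 10) (1 / 10) ht ht
  rw [← mul_add] at hk
  have h := tree_sound A.f_le A.le_a A.f_nonneg A.a_le A.base hq hk T _ _ _ _ _ _ hT
    (by norm_num [sc]; linarith [hv.1]) (by norm_num [sc]; linarith [hv.2])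
    (by norm_num [sc]; exact A.f_nonneg) (by norm_num [sc]; linarith [A.f_le, hv.2])
    (by norm_num [sc]; linarith [A.le_a, hv.1]) (by norm_num [sc]; exact A.a_le)
  rcases h with h | h | h | ⟨h1, h2⟩
  · exact Or.inl (Or.inl (by simp only [goalM, margin] at h; linarith))
  · exact Or.inr (Or.inl h)
  · exact Or.inr (Or.inr h)
  · refine Or.inl (Or.inr (Or.inr ⟨i, by linarith, by linarith, A.a_le, ?_⟩))
    have hg : goalF v ≤ 1 := min_le_right _ _
    have := corner_window A.f_nonneg h1 h2 A.a_le hv.1 (by linarith [hv.2]) A.base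
    have s1 : f i ≤ √(f i) := Real.le_sqrt_of_sq_le (by nlinarith [A.f_nonneg])
    have s2 : 1 - a i ≤ √(1 - a i) := Real.le_sqrt_of_sq_le (by nlinarith [A.a_le])
    have := A.f_nonneg
    have := A.a_le
    linarith

end

end Vale.Agent.P232.Gap
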