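import Vale.Agent.P232.Gap.Defs

/-!
# P232: two small axes in the middle window

The third axis is calibrated by the chord of the round profile through its extreme slice areas. When
the greatest area exceeds `1/π` the band bound is tilted, at the price of the two small least areas.
-/

namespace Vale.Agent.P232.Gap

noncomputable section

open Set Real

/-- An upper bound for the root of `π`. -/
def rpi : ℝ := 1772454 / 1000000

/-- The gain of the chord, times the sum of the roots of its ends. -/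
def chordNum (s t u : ℝ) : ℝ :=
  (u - s) ^ 2 * (1570796 / 1000000 * s + 2 / 3 * (u - s)) - rpi * (t - s) * (u - t)

lemma sqrt_pi_le : √π ≤ rpi := by
  rw [Real.sqrt_le_iff]
  exact ⟨by norm_num [rpi], le_trans Real.pi_lt_d6.le (by norm_num [rpi])⟩

/-- The chord bound for the round profile. -/
lemma chord_bound {v f a Q : ℝ} (hf : 0 < f) (h1 : f ≤ v) (h2 : v ≤ a)
    (hQ : Low (fun x => √(π * x)) v f a Q) :
    √(π * v) + chordNum (√f) (√v) (√a) / (√a + √f) ≤ Q := by
  have hv : 0 < v := hf.trans_le h1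
  have ha : 0 < a := hv.trans_le h2
  have s0 : 0 < √f := Real.sqrt_pos.2 hf
  have st : √f ≤ √v := Real.sqrt_le_sqrt h1
  have tu : √v ≤ √a := Real.sqrt_le_sqrt h2
  have ef : √f ^ 2 = f := Real.sq_sqrt hf.le
  have ea : √a ^ 2 = a := Real.sq_sqrt ha.le
  have hS : 0 < √a + √f := by positivity
  have hI := integral_rbeta_ge s0.le (st.trans tu) hS
  have hc : ContinuousOn (rbeta (√a) (√f)) (Icc f a) := by
    have := rbeta_cont (p := √a) s0.le
    rwa [ef, ea] at this
  have h := hQ _ _ _ hc fun x hx =>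
    rbeta_adm s0.le hS (by rw [ef]; exact hx.1) (by rw [ea]; exact hx.2) (Real.sqrt_nonneg a)
  rw [ef, ea] at hI
  have key : √(π * v) + chordNum (√f) (√v) (√a) / (√a + √f) ≤
      √π / (√a + √f) * v + √π * √a * √f / (√a + √f) +
        (2 / 3 * (√a - √f) ^ 3 + π / 2 * (√a - √f) ^ 2 * √f) / (√a + √f) := by
    rw [Real.sqrt_mul Real.pi_pos.le]
    set s := √f
    set t := √v with htd
    set u := √a
    have ev : v = t ^ 2 := (Real.sq_sqrt hv.le).symm
    rw [show √π * t + chordNum s t u / (u + s) = (√π * t * (u + s) + chordNum s t u) / (u + s) by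
        field_simp,
      show √π / (u + s) * v + √π * u * s / (u + s) +
          (2 / 3 * (u - s) ^ 3 + π / 2 * (u - s) ^ 2 * s) / (u + s) =
        (√π * v + √π * u * s + (2 / 3 * (u - s) ^ 3 + π / 2 * (u - s) ^ 2 * s)) / (u + s) by
        field_simp]
    refine div_le_div_of_nonneg_right ?_ hS.le
    have hp : 0 ≤ (t - s) * (u - t) := mul_nonneg (sub_nonneg.2 st) (sub_nonneg.2 tu)
    have e1 := mul_nonneg (sub_nonneg.2 sqrt_pi_le) hp
    have e2 : 0 ≤ (π / 2 - 1570796 / 1000000) * ((u - s) ^ 2 * s) :=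
      mul_nonneg (by linarith [Real.pi_gt_d6]) (mul_nonneg (sq_nonneg _) s0.le)
    rw [chordNum, ev]
    nlinarith
  linarith

/-- The gain is at least the square of the width of the roots times an affine function. -/
lemma chordNum_ge (s t u : ℝ) :
    (u - s) ^ 2 * (1570796 / 1000000 * s + 2 / 3 * (u - s) - rpi / 4) ≤ chordNum s t u := by
  unfold chordNum rpi
  nlinarith [sq_nonneg (u + s - 2 * t)]

lemma affine_ge {s u : ℝ} (hs : 2236 / 10000 ≤ s) (hu : 5128 / 10000 ≤ u) :
    1 / 10 ≤ 1570796 / 1000000 * s + 2 / 3 * (u - s) - rpi / 4 := by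
  unfold rpi
  linarith

/-- The quadratic form of the gain near a tube. -/
lemma quad_le {A R k z z₀ y : ℝ} (hR : 0 < R) (hz : z₀ ≤ z) (hmono : k / 2 ≤ 2 * A * z₀)
    (hA : 0 ≤ A) :
    A * z₀ ^ 2 - k * z₀ / 2 - k ^ 2 / (4 * R) ≤
      (A + R / 4) * z ^ 2 - R * y * (z - y) - k * y := by
  have e : (A + R / 4) * z ^ 2 - R * y * (z - y) - k * y =
      A * z ^ 2 - k * z / 2 - k ^ 2 / (4 * R) + R * (y - z / 2 - k / (2 * R)) ^ 2 := by
    field_simp
    ring
  rw [e]
  nlinarith [mul_nonneg (sub_nonneg.2 hz) (by nlinarith : 0 ≤ A * (z + z₀) - k / 2),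
    mul_nonneg hR.le (sq_nonneg (y - z / 2 - k / (2 * R)))]

/-- Near a tube the gain beats a loss that is linear in the upper width. -/
lemma near_gain {s t u t₀ W K c zm z₀ : ℝ} (hs : 2236 / 10000 ≤ s) (hst : s ≤ t) (htu : t ≤ u)
    (hu : 5128 / 10000 ≤ u) (hz : u - s ≤ zm) (hz₀ : z₀ ≤ u - s) (ht₀ : t₀ ≤ t)
    (hW : 2 * t + (u - s) ≤ W) (hK : 0 ≤ K)
    (hA : 0 ≤ 1570796 / 1000000 * t₀ - (1570796 / 1000000 - 2 / 3) * zm - rpi / 4)
    (hmono : K * W ^ 2 / 2 ≤
      2 * (1570796 / 1000000 * t₀ - (1570796 / 1000000 - 2 / 3) * zm - rpi / 4) * z₀)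
    (hnum : W * (1 / 10 ^ 8 - c) ≤
      (1570796 / 1000000 * t₀ - (1570796 / 1000000 - 2 / 3) * zm - rpi / 4) * z₀ ^ 2
        - K * W ^ 2 * z₀ / 2 - (K * W ^ 2) ^ 2 / (4 * rpi)) :
    (K * ((u - t) * (u + t)) - c + 1 / 10 ^ 8) * (u + s) ≤ chordNum s t u := by
  set A := 1570796 / 1000000 * t₀ - (1570796 / 1000000 - 2 / 3) * zm - rpi / 4 with hAd
  have hN : 0 ≤ chordNum s t u :=
    le_trans (mul_nonneg (sq_nonneg _) (le_trans (by norm_num) (affine_ge hs hu)))
      (chordNum_ge s t u)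
  rcases le_or_gt (K * ((u - t) * (u + t)) - c + 1 / 10 ^ 8) 0 with h | h
  · nlinarith
  have q := quad_le (A := A) (R := rpi) (k := K * W ^ 2) (y := u - t) (by norm_num [rpi]) hz₀ hmono hA
  have hlow : (A + rpi / 4) * (u - s) ^ 2 - rpi * (u - t) * (u - s - (u - t)) ≤ chordNum s t u := by
    have e : A + rpi / 4 ≤ 1570796 / 1000000 * s + 2 / 3 * (u - s) := by
      rw [hAd]
      linarith
    have e2 := mul_le_mul_of_nonneg_right e (sq_nonneg (u - s))
    rw [chordNum, show u - s - (u - t) = t - s by ring]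
    linarith
  have hW0 : 0 ≤ W := le_trans (by linarith) hW
  have e3 : K * ((u - t) * (u + t)) ≤ K * ((u - t) * W) :=
    mul_le_mul_of_nonneg_left (mul_le_mul_of_nonneg_left (by linarith) (by linarith)) hK
  calc (K * ((u - t) * (u + t)) - c + 1 / 10 ^ 8) * (u + s)
      ≤ (K * ((u - t) * (u + t)) - c + 1 / 10 ^ 8) * W :=
        mul_le_mul_of_nonneg_left (by linarith) h.le
    _ ≤ (K * ((u - t) * W) - c + 1 / 10 ^ 8) * W :=
        mul_le_mul_of_nonneg_right (by linarith) hW0
    _ ≤ chordNum s t u := by nlinarith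

/-- The tilted band profile lies above the round profile up to the tilt point. -/
lemma round_le_kfun {e x : ℝ} (he0 : 0 ≤ e) (he1 : e ≤ 1 / 10) (hx0 : 0 ≤ x)
    (hx : x ≤ 1 / π + e) :
    √(π * x) ≤ kfun (494 / 100 * e) (494 / 100 * e) x := by
  have hp0 := Real.pi_pos
  have hinv : (3183 / 10000 : ℝ) ≤ 1 / π ∧ 1 / π ≤ 3184 / 10000 := by
    constructor
    · rw [le_div_iff₀ hp0]; nlinarith [Real.pi_lt_d6]
    · rw [div_le_iff₀ hp0]; nlinarith [Real.pi_gt_d6]
  set k := 494 / 100 * e with hk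
  have hk1 : k ∈ Icc (0 : ℝ) 1 := ⟨by positivity, by linarith⟩
  have hC := bandC_ge hk1
  set a := 1 / π + e with had
  have e1 : π * a = 1 + π * e := by rw [had]; field_simp
  have ha : √(π * a) ≤ bandC k + k * a := by
    refine le_trans (Real.sqrt_le_iff.2 ⟨?_, ?_⟩ : √(π * a) ≤ 1 + π * e / 2) ?_
    · nlinarith [mul_nonneg hp0.le he0]
    · rw [e1]
      nlinarith [sq_nonneg (π * e)]
    · have hka : k * (3183 / 10000 + e) ≤ k * a :=
        mul_le_mul_of_nonneg_left (by linarith [hinv.1]) hk1.1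
      have hpe : π * e ≤ 31416 / 10000 * e :=
        mul_le_mul_of_nonneg_right (le_trans Real.pi_lt_d6.le (by norm_num)) he0
      have e2 : 0 ≤ e ^ 2 * (1 / 10 - e) := mul_nonneg (sq_nonneg e) (by linarith)
      have e3 : 0 ≤ e ^ 2 * (1 / 100 - e ^ 2) := mul_nonneg (sq_nonneg e) (by nlinarith)
      rw [hk] at hC hka ⊢
      nlinarith [sq_nonneg e]
  have hx' : √(π * x) ≤ bandC k + k * x := by
    have es : √(π * a) ≤ 23 / 20 :=
      Real.sqrt_le_iff.2 ⟨by norm_num, by rw [e1]; nlinarith [Real.pi_lt_d6]⟩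
    have ex : √(π * x) ≤ √(π * a) :=
      Real.sqrt_le_sqrt (mul_le_mul_of_nonneg_left hx hp0.le)
    have qa := Real.sq_sqrt (mul_nonneg hp0.le (hx0.trans hx))
    have qx := Real.sq_sqrt (mul_nonneg hp0.le hx0)
    have h1 : π * (a - x) ≤ (√(π * a) - √(π * x)) * (23 / 10) := by
      nlinarith [mul_nonneg (sub_nonneg.2 ex) (by linarith : 0 ≤ 23 / 10 - √(π * a) - √(π * x))]
    have h2 : k * (a - x) ≤ (1 / 2) * (a - x) :=
      mul_le_mul_of_nonneg_right (by linarith) (sub_nonneg.2 hx)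
    nlinarith [Real.pi_gt_three, sub_nonneg.2 hx]
  exact le_min (le_min le_rfl hx') (le_min hx' (Real.sqrt_le_sqrt
    (mul_le_mul_of_nonneg_left (by linarith [hinv.2]) hp0.le)))

lemma sqrt_pi_slack {v : ℝ} (hv : 1 / π ≤ v) (hv' : v ≤ 323 / 1000) :
    156 / 100 * (v - 1 / π) ≤ √(π * v) - 1 := by
  have hp0 := Real.pi_pos
  have h1 : 1 ≤ π * v := by
    calc (1 : ℝ) = π * (1 / π) := by field_simp
      _ ≤ π * v := mul_le_mul_of_nonneg_left hv hp0.le
  have hs : √(π * v) ≤ 1008 / 1000 :=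
    Real.sqrt_le_iff.2 ⟨by norm_num, by nlinarith [Real.pi_lt_d6]⟩
  have hs1 : 1 ≤ √(π * v) := Real.le_sqrt_of_sq_le (by linarith)
  have q := Real.sq_sqrt (by linarith : 0 ≤ π * v)
  have e : π * (v - 1 / π) = π * v - 1 := by field_simp
  nlinarith [mul_nonneg (sub_nonneg.2 hs1) (sub_nonneg.2 hs),
    mul_nonneg (sub_nonneg.2 hv) (sub_nonneg.2 Real.pi_gt_d6.le)]

/-- The gain pays for the tilt. -/
lemma band_gain {v f a ε G : ℝ} (hv0 : 263 / 1000 ≤ v) (hv1 : v ≤ 323 / 1000) (hf0 : 1 / 20 ≤ f)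
    (hfv : f ≤ v) (hva : v ≤ a) (hD : 6 / 1000 < a - f) (he0 : 0 ≤ a - 1 / π)
    (he1 : a - 1 / π ≤ 1 / 10) (hε : ε ≤ 8 / 10000)
    (hε' : 316 / 1000 ≤ v → v ≤ 31832 / 100000 → ε ≤ 59 / 100000)
    (hG : chordNum (√f) (√v) (√a) / (√a + √f) ≤ G) :
    goalF v + 1 / 10 ^ 8 ≤ √(π * v) + G - 494 / 100 * (a - 1 / π) * ε := by
  have hp0 := Real.pi_pos
  have i0 : (3183098 / 10000000 : ℝ) ≤ 1 / π := by
    rw [le_div_iff₀ hp0]; nlinarith [Real.pi_lt_d6]
  have i1 : 1 / π ≤ 31831 / 100000 := by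
    rw [div_le_iff₀ hp0]; nlinarith [Real.pi_gt_d6]
  have g1 : goalF v ≤ √(π * v) := (min_le_left _ _).trans (min_le_right _ _)
  have g2 : goalF v ≤ 1 := min_le_right _ _
  set s := √f with hsd
  set t := √v with htd
  set u := √a with hud
  have ef : f = s ^ 2 := (Real.sq_sqrt (by linarith)).symm
  have ev : v = t ^ 2 := (Real.sq_sqrt (by linarith)).symm
  have ea : a = u ^ 2 := (Real.sq_sqrt (by linarith)).symm
  have hs : 2236 / 10000 ≤ s := Real.le_sqrt_of_sq_le (by linarith)
  have ht : 5128 / 10000 ≤ t := Real.le_sqrt_of_sq_le (by linarith)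
  have hst : s ≤ t := Real.sqrt_le_sqrt hfv
  have htu : t ≤ u := Real.sqrt_le_sqrt hva
  have hS : 0 < u + s := by linarith
  have hu2 : u ≤ 65 / 100 := Real.sqrt_le_iff.2 ⟨by norm_num, by linarith⟩
  have ep : (u - t) * (u + t) = a - v := by rw [ea, ev]; ring
  have reduce : ∀ K c : ℝ,
      (K * ((u - t) * (u + t)) - c + 1 / 10 ^ 8) * (u + s) ≤ chordNum s t u →
      494 / 100 * (a - 1 / π) * ε - (√(π * v) - goalF v) ≤ K * ((u - t) * (u + t)) - c →
      goalF v + 1 / 10 ^ 8 ≤ √(π * v) + G - 494 / 100 * (a - 1 / π) * ε := by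
    intro K c h1 h2
    have := ((le_div_iff₀ hS).2 h1).trans hG
    linarith
  have loss : ∀ E, ε ≤ E →
      494 / 100 * (a - 1 / π) * ε ≤ 494 / 100 * E * ((u - t) * (u + t)) +
        494 / 100 * E * (v - 1 / π) := by
    intro E hE
    rw [ep]
    have := mul_le_mul_of_nonneg_left hE (mul_nonneg (by norm_num : (0 : ℝ) ≤ 494 / 100) he0)
    linarith
  rcases le_or_gt (u - s) (3 / 100) with hz | hz
  · have hz' : 6 / 1000 ≤ (u - s) * (u + s) := by
      rw [ea, ef] at hD; linarith
    have low : ∀ W, 0 < W → u + s ≤ W → 6 / 1000 / W ≤ u - s := fun W hW hS' => by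
      rw [div_le_iff₀ hW]
      exact hz'.trans (mul_le_mul_of_nonneg_left hS' (by linarith))
    rcases le_or_gt v (3 / 10) with c1 | c1
    · have t1 : t ≤ 5478 / 10000 := Real.sqrt_le_iff.2 ⟨by norm_num, by linarith⟩
      refine reduce (3952 / 1000000) (3952 / 1000000 * (183 / 10000))
        (near_gain (t₀ := 5128 / 10000) (W := 11256 / 10000) hs hst htu (by linarith) hz
          (low (11256 / 10000) (by norm_num) (by linarith)) ht (by linarith) (by norm_num)
          (by norm_num [rpi]) (by norm_num [rpi]) (by norm_num [rpi])) ?_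
      linarith [loss (8 / 10000) hε]
    rcases le_or_gt v (316 / 1000) with c2 | c2
    · have t1 : t ≤ 56214 / 100000 := Real.sqrt_le_iff.2 ⟨by norm_num, by linarith⟩
      refine reduce (3952 / 1000000) (3952 / 1000000 * (23098 / 10000000))
        (near_gain (t₀ := 5477 / 10000) (W := 11544 / 10000) hs hst htu (by linarith) hz
          (low (11544 / 10000) (by norm_num) (by linarith)) (Real.le_sqrt_of_sq_le (by linarith)) (by linarith)
          (by norm_num) (by norm_num [rpi]) (by norm_num [rpi]) (by norm_num [rpi])) ?_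
      linarith [loss (8 / 10000) hε]
    rcases le_or_gt v (31832 / 100000) with c3 | c3
    · have t1 : t ≤ 5642 / 10000 := Real.sqrt_le_iff.2 ⟨by norm_num, by linarith⟩
      have t0 : 56213 / 100000 ≤ t := Real.le_sqrt_of_sq_le (by linarith)
      refine reduce (29146 / 10000000) 0 ?_ ?_
      · rcases le_or_gt (u - s) (62 / 10000) with z1 | z1
        · exact near_gain (t₀ := 56213 / 100000) (W := 11346 / 10000) hs hst htu (by linarith) z1
            (low (11346 / 10000) (by norm_num) (by linarith)) t0 (by linarith) (by norm_num)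
            (by norm_num [rpi]) (by norm_num [rpi]) (by norm_num [rpi])
        · exact near_gain (t₀ := 56213 / 100000) (W := 11584 / 10000) (z₀ := 62 / 10000) hs hst htu
            (by linarith) hz z1.le t0 (by linarith) (by norm_num)
            (by norm_num [rpi]) (by norm_num [rpi]) (by norm_num [rpi])
      have l := loss (59 / 100000) (hε' c2.le c3)
      rcases le_or_gt v (1 / π) with c4 | c4
      · linarith
      · linarith [sqrt_pi_slack c4.le hv1]
    · have t1 : t ≤ 56834 / 100000 := Real.sqrt_le_iff.2 ⟨by norm_num, by linarith⟩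
      refine reduce (3952 / 1000000) (1556 / 1000 * (31832 / 100000 - 31831 / 100000))
        (near_gain (t₀ := 56419 / 100000) (W := 11668 / 10000) hs hst htu (by linarith) hz
          (low (11668 / 10000) (by norm_num) (by linarith)) (Real.le_sqrt_of_sq_le (by linarith)) (by linarith)
          (by norm_num) (by norm_num [rpi]) (by norm_num [rpi]) (by norm_num [rpi])) ?_
      linarith [loss (8 / 10000) hε, sqrt_pi_slack (by linarith : 1 / π ≤ v) hv1]
  · have hQ := affine_ge hs (by linarith : 5128 / 10000 ≤ u)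
    have t1 : t ≤ 5684 / 10000 := Real.sqrt_le_iff.2 ⟨by norm_num, by linarith⟩
    set Q := 1570796 / 1000000 * s + 2 / 3 * (u - s) - rpi / 4 with hQd
    have key : 3952 / 1000000 * (u + s) ^ 2 + 1 / 100000 ≤ (u - s) * Q := by
      have : (u + s) ^ 2 ≤ (u + s) * (12184 / 10000) := by
        rw [sq]
        exact mul_le_mul_of_nonneg_left (by linarith) hS.le
      rcases le_or_gt s (4 / 10) with cs | cs
      · have := mul_le_mul (by linarith : 11 / 100 ≤ u - s) hQ (by norm_num) (by linarith)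
        linarith
      · have m := mul_le_mul_of_nonneg_right hz.le (by linarith : 0 ≤ Q)
        rw [hQd, rpi] at m ⊢
        linarith
    have h1 : (3952 / 1000000 * ((u - s) * (u + s)) + 1 / 10 ^ 8) * (u + s) ≤ chordNum s t u := by
      refine le_trans ?_ (chordNum_ge s t u)
      rw [← hQd]
      have m1 := mul_le_mul_of_nonneg_left key (by linarith : 0 ≤ u - s)
      linarith
    have h2 := ((le_div_iff₀ hS).2 h1).trans hG
    have h3 : 494 / 100 * (a - 1 / π) * ε - (√(π * v) - goalF v) ≤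
        3952 / 1000000 * ((u - s) * (u + s)) := by
      have l := loss (8 / 10000) hε
      have hap : (u - t) * (u + t) ≤ (u - s) * (u + s) := by
        have : (u - s) * (u + s) = a - f := by rw [ea, ef]; ring
        rw [ep, this]
        linarith
      rcases le_or_gt v (1 / π) with c4 | c4
      · linarith
      · linarith [sqrt_pi_slack c4.le hv1]
    linarith

/-- Far from the tilt point the gain pays for both small areas. -/
lemma round_gain {s t u : ℝ} (hs : 2236 / 10000 ≤ s) (hs' : s ≤ 5684 / 10000)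
    (hu : 6467 / 10000 ≤ u) (hu' : u ≤ 1) :
    8 / 10000 + 1 / 10 ^ 8 ≤ chordNum s t u / (u + s) := by
  rw [le_div_iff₀ (by linarith)]
  refine le_trans ?_ (chordNum_ge s t u)
  have m1 : (8 / 10000 + 1 / 10 ^ 8) * (u + s) ≤ 13 / 10000 := by linarith
  refine m1.trans ?_
  unfold rpi
  rcases le_or_gt s (45 / 100) with cs | cs
  · have z1 : (196 / 1000 : ℝ) ≤ u - s := by linarith
    have z2 : (196 / 1000 : ℝ) ^ 2 ≤ (u - s) ^ 2 := pow_le_pow_left₀ (by norm_num) z1 2
    have hQ : (1 / 10 : ℝ) ≤ 1570796 / 1000000 * s + 2 / 3 * (u - s) - 1772454 / 1000000 / 4 := by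
      linarith
    linarith [mul_le_mul z2 hQ (by norm_num) (sq_nonneg (u - s))]
  · have z1 : (78 / 1000 : ℝ) ≤ u - s := by linarith
    have z2 : (78 / 1000 : ℝ) ^ 2 ≤ (u - s) ^ 2 := pow_le_pow_left₀ (by norm_num) z1 2
    have hQ : (3 / 10 : ℝ) ≤ 1570796 / 1000000 * s + 2 / 3 * (u - s) - 1772454 / 1000000 / 4 := by
      linarith
    linarith [mul_le_mul z2 hQ (by norm_num) (sq_nonneg (u - s))]

/-- The bound from the axis whose least area is not small. -/
lemma axis_bound {v f a P ε : ℝ} (hv0 : 263 / 1000 ≤ v) (hv1 : v ≤ 323 / 1000) (hf0 : 1 / 20 ≤ f)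
    (hfv : f ≤ v) (hva : v ≤ a) (ha1 : a ≤ 1) (hD : 6 / 1000 < a - f)
    (hε : ε ≤ 8 / 10000) (hε' : 316 / 1000 ≤ v → v ≤ 31832 / 100000 → ε ≤ 59 / 100000)
    (base : Low gfun v f a P) (round : Low (fun x => √(π * x)) v f a (P + ε))
    (band : ∀ k : ℝ, k ∈ Icc (0 : ℝ) 1 → Low (kfun k k) v f a (P + k * ε)) :
    goalF v + 1 / 10 ^ 8 ≤ P := by
  have g1 : goalF v ≤ √(π * v) := (min_le_left _ _).trans (min_le_right _ _)
  have hfp : 0 < f := by linarith
  have hs : 2236 / 10000 ≤ √f := Real.le_sqrt_of_sq_le (by linarith)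
  have hu : 5128 / 10000 ≤ √a := Real.le_sqrt_of_sq_le (by linarith)
  have hu1 : √a ≤ 1 := Real.sqrt_le_one.2 ha1
  have hst : √f ≤ √v := Real.sqrt_le_sqrt hfv
  have ht1 : √v ≤ 5684 / 10000 := Real.sqrt_le_iff.2 ⟨by norm_num, by linarith⟩
  have hQ := affine_ge hs hu
  have hN := chordNum_ge (√f) (√v) (√a)
  have hS : 0 < √a + √f := by linarith
  have hDz : (√a - √f) * (√a + √f) = a - f := by
    linear_combination Real.sq_sqrt (by linarith : (0 : ℝ) ≤ a) - Real.sq_sqrt hfp.le
  rcases le_or_gt a (1 / π) with ca | ca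
  · have hc := chord_bound hfp hfv hva (low_round_of_gfun hfp.le ca base)
    have hz : 38 / 10000 ≤ √a - √f := by nlinarith
    have : 1 / 10 ^ 8 ≤ chordNum (√f) (√v) (√a) / (√a + √f) := by
      rw [le_div_iff₀ hS]
      refine le_trans ?_ hN
      nlinarith [mul_le_mul (pow_le_pow_left₀ (by norm_num) hz 2) hQ (by norm_num) (sq_nonneg _)]
    linarith
  rcases le_or_gt (a - 1 / π) (1 / 10) with cb | cb
  · set k := 494 / 100 * (a - 1 / π) with hk
    have hk1 : k ∈ Icc (0 : ℝ) 1 := ⟨by rw [hk]; linarith, by rw [hk]; linarith⟩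
    have hb : Low (fun x => √(π * x)) v f a (P + k * ε) := fun H C β hc h =>
      band k hk1 H C β hc fun x hx => by
        obtain ⟨h0, h1, h2⟩ := h x hx
        refine ⟨h0, ?_, h2⟩
        simp only at h1 ⊢
        have hle := round_le_kfun (e := a - 1 / π) (x := x) (by linarith) cb
          (hfp.le.trans hx.1) (by linarith [hx.2])
        rw [← hk] at hle
        have q := pow_le_pow_left₀ (Real.sqrt_nonneg _) hle 2
        nlinarith [mul_le_mul_of_nonneg_right q
          (by nlinarith : 0 ≤ 1 - β x ^ 2)]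
    have hc := chord_bound hfp hfv hva hb
    have := band_gain hv0 hv1 hf0 hfv hva hD (sub_nonneg.2 ca.le) cb hε hε' le_rfl
    rw [← hk] at this
    linarith
  · have hc := chord_bound hfp hfv hva round
    have hi : (3183 / 10000 : ℝ) ≤ 1 / π := by
      rw [le_div_iff₀ Real.pi_pos]; nlinarith [Real.pi_lt_d6]
    have hu2 : 6467 / 10000 ≤ √a := Real.le_sqrt_of_sq_le (by linarith)
    have := round_gain (t := √v) hs (hst.trans ht1) hu2 hu1
    linarith

/-- Two small axes. -/
theorem twoSmall_case (L : ℝ) : TwoSmallCase L := by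
  intro v P η f a S hv hη hD i h1 h2 hf
  rcases le_or_gt (a i - f i) (6 / 1000) with c | c
  · exact Or.inr (Or.inl ⟨⟨by linarith [hv.1], by linarith [hv.2]⟩, i, c⟩)
  have A := hD.ax i
  refine Or.inl ?_
  have := axis_bound (ε := f (i + 1) + f (i + 2)) hv.1 hv.2 hf A.f_le A.le_a A.a_le c
    (by linarith [h1.2.1, h2.2.1])
    (fun x y => by linarith [h1.2.2.1 x y, h2.2.2.1 x y]) A.base A.round
    (fun k hk => by rw [mul_add]; exact A.band k k hk hk)
  linarith

end

end Vale.Agent.P232.Gap
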